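import Vale.Agent.P032.H460.CovK
import Vale.Agent.P032.H695.Par

/-!
# P032: parity at a quasi-full centre, J- or K-ends

`parK` : 695's `Ctr.par` where each end of the closed `ab`-arc may carry one of the free colours
`e`, `f`, if the other one is a colour of the outward apex (K-end).
-/

open Set Filter Topology Metric

noncomputable section

namespace Vale.Agent.P032.H460

open Vale.Agent.P032.Six Vale.Agent.P032.S5.H767 Vale.Agent.P032.H695
open Vale.Agent.P032.H180 hiding pt pt_six dist_pt continuous_pt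

variable {U : Fin 6 → Set ℂ} {T : ℂ → Set (Fin 6)} {z : ℂ} {a b c d e f : Fin 6}

/-- the end `p` of the closed `ab`-arc with the outward apex `p'` : no free colour at `p` (J-end),
or one of the two free colours is absent at `p` and present at `p'` (K-end) -/
def PEnd (T : ℂ → Set (Fin 6)) (e f : Fin 6) (p p' : ℂ) : Prop :=
  (e ∉ T p ∧ f ∉ T p) ∨ (f ∉ T p ∧ f ∈ T p') ∨ (e ∉ T p ∧ e ∈ T p')

theorem PEnd.kend {t t' : ℝ} {p : ℝ → ℂ} (h : PEnd T e f (p t) (p t'))
    (hp : ∀ t, dist (p t) z = 1) : KEnd (fun t => Q3 T z a b c d e f (p t)) t t' := by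
  rcases h with ⟨h1, h2⟩ | ⟨h1, h2⟩ | ⟨h1, h2⟩
  · left
    intro l hl
    rcases hl with ⟨rfl, h⟩ | ⟨rfl, h⟩ | ⟨rfl, h⟩
    · exact absurd h.2 h1
    · exact absurd h.2 h2
    · rfl
  · right; left
    exact ⟨fun h => h1 (Q3_one.1 h).2, Q3_one.2 ⟨hp t', h2⟩⟩
  · right; right
    exact ⟨fun h => h1 (Q3_zero.1 h).2, Q3_zero.2 ⟨hp t', h2⟩⟩

/-- **Parity at a quasi-full centre, J- or K-ends.** -/
theorem parK (C : Ctr U T z a b c d e f) {u0 α : ℝ} (hα0 : 0 < α) (hα1 : α ≤ 1)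
    (hX : ∀ t ∈ Ioo (0 : ℝ) α, e ∉ T (pt z (u0 + t)) ∧ f ∉ T (pt z (u0 + t)))
    (hl : PEnd T e f (pt z u0) (pt z (u0 - 1)))
    (hr : PEnd T e f (pt z (u0 + α)) (pt z (u0 + α + 1)))
    (hXonly : ∀ t ∈ Ioo α (6 : ℝ), pt z (u0 + t) ∉ closure (Ex T z {a, b}))
    (hback : ∀ t ∈ Icc (0 : ℝ) α, pt z (u0 + 3 + t) ∉ closure (Ex T z {c, d}))
    (hsw : (∀ q, dist q z = 1 → e ∈ T q → f ∈ T q → q ∉ closure (Ex T z {a, b}) ∧
        q ∉ closure (Ex T z {c, d})) →
      ∀ y y', dist y z = 1 → dist y' z = 1 → dist y y' = 1 → y ∉ closure (Ex T z {a, b}) →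
        y' ∉ closure (Ex T z {a, b}) → ¬ Swp T z a b c d e f y y') :
    Par T z e f := by
  intro T' hcl hne hT
  by_contra hno
  have hn := C.nd
  simp only [List.nodup_cons, List.mem_cons, List.not_mem_nil, or_false, not_or, List.nodup_nil,
    and_true, not_false_eq_true] at hn
  obtain ⟨⟨ab, ac, ad, ae, af⟩, ⟨bc, bd, be, bf⟩, ⟨cd, ce, cf⟩, ⟨de, df⟩, ef⟩ := hn
  -- pair arcs carry the label `2`
  have h2 : ∀ P : Set (Fin 6), e ∉ P → f ∉ P → ∀ q ∈ closure (Ex T z P),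
      2 ∈ KK T' z e f q := by
    intro P he hf q hq
    refine closure_minimal (fun y hy => ?_) (KK_closed (z := z) (e := e) (f := f) hcl 2) hq
    have hy1 := ex_self hy
    have hyT : T' y = P := (hT y hy.1).trans hy1
    exact KK_two.2 (exists_inn hcl hne hy.1.le (by rw [hyT]; exact he) (by rw [hyT]; exact hf))
  have h2a := h2 {a, b} (by simp [Ne.symm ae, Ne.symm be]) (by simp [Ne.symm af, Ne.symm bf])
  have h2c := h2 {c, d} (by simp [Ne.symm ce, Ne.symm de]) (by simp [Ne.symm cf, Ne.symm df])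
  have hQK : ∀ y, dist y z = 1 → Q3 T z a b c d e f y ⊆ KK T' z e f y := by
    intro y hy l hl
    rcases hl with ⟨rfl, h⟩ | ⟨rfl, h⟩ | ⟨rfl, h | h⟩
    · exact KK_zero.2 (by rw [hT y hy]; exact h.2)
    · exact KK_one.2 (by rw [hT y hy]; exact h.2)
    · exact h2a y h
    · exact h2c y h
  -- no triple point
  have hntr : ∀ q, dist q z = 1 → ¬ ∀ l, l ∈ Q3 T z a b c d e f q := by
    intro q hq hall
    obtain ⟨x, hx1, hx2, hx3⟩ := KK_two.1 (hQK q hq (hall 2))
    exact hno ⟨q, x, hq.le, KK_zero.1 (hQK q hq (hall 0)), KK_one.1 (hQK q hq (hall 1)), hx1, hx2,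
      hx3⟩
  have hsw' := hsw fun q hq he hf => by
    constructor
    · intro h
      refine hntr q hq fun l => ?_
      have hl : l = 0 ∨ l = 1 ∨ l = 2 := by fin_cases l <;> simp
      rcases hl with rfl | rfl | rfl
      exacts [Q3_zero.2 ⟨hq, he⟩, Q3_one.2 ⟨hq, hf⟩, Q3_two.2 (Or.inl h)]
    · intro h
      refine hntr q hq fun l => ?_
      have hl : l = 0 ∨ l = 1 ∨ l = 2 := by fin_cases l <;> simp
      rcases hl with rfl | rfl | rfl
      exacts [Q3_zero.2 ⟨hq, he⟩, Q3_one.2 ⟨hq, hf⟩, Q3_two.2 (Or.inr h)]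
  obtain ⟨g, hg, hg6⟩ := exists_sec hcl hne hno ((u0 - 3) * (Real.pi / 3))
  have e1 : ∀ t : ℝ, z + cis ((u0 - 3) * (Real.pi / 3) + t * (Real.pi / 3)) =
      pt z (u0 - 3 + t) := by
    intro t; unfold pt; congr 2; ring
  have e2 : z + cis ((u0 - 3) * (Real.pi / 3)) = pt z (u0 - 3 + 0) := by
    rw [← e1, zero_mul, add_zero]
  simp only [e1] at hg
  rw [e2] at hg6
  have hcov : Cov fun t => Q3 T z a b c d e f (pt z (u0 - 3 + t)) := by
    refine ⟨fun t => ?_, fun t => ?_, fun t => ?_, fun t => ?_⟩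
    · have h1 : u0 - 3 + (t + 6) = u0 - 3 + t + 6 := by ring
      simp only [h1, pt_six]
    · obtain ⟨l, hl⟩ := C.cover (dist_pt z (u0 - 3 + t))
      exact ⟨mg l, Q3_mg hl⟩
    · by_contra hcon
      push Not at hcon
      exact hntr _ (dist_pt z _) hcon
    · have h1 : Tendsto (fun s : ℝ => pt z (u0 - 3 + s)) (𝓝 t) (𝓝 (pt z (u0 - 3 + t))) :=
        ((continuous_pt z).comp (continuous_const_add (u0 - 3))).tendsto t
      have h3 : ∀ l, ∀ᶠ y in 𝓝 (pt z (u0 - 3 + t)), l ∈ Q3 T z a b c d e f y →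
          l ∈ Q3 T z a b c d e f (pt z (u0 - 3 + t)) := by
        intro l
        by_cases hl : l ∈ Q3 T z a b c d e f (pt z (u0 - 3 + t))
        · exact Eventually.of_forall fun _ _ => hl
        · filter_upwards [(Q3_closed C.irr l).isOpen_compl.mem_nhds hl] with y hy hy'
          exact absurd hy' hy
      filter_upwards [h1.eventually (eventually_all.2 h3)] with y hy l hl
      exact hy l hl
  have kl : KEnd (fun t => Q3 T z a b c d e f (pt z (u0 - 3 + t))) 3 2 := by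
    refine PEnd.kend (p := fun t => pt z (u0 - 3 + t)) ?_ fun t => dist_pt z _
    show PEnd T e f (pt z (u0 - 3 + 3)) (pt z (u0 - 3 + 2))
    rw [show u0 - 3 + 3 = u0 by ring, show u0 - 3 + 2 = u0 - 1 by ring]
    exact hl
  have kr : KEnd (fun t => Q3 T z a b c d e f (pt z (u0 - 3 + t))) (3 + α) (4 + α) := by
    refine PEnd.kend (p := fun t => pt z (u0 - 3 + t)) ?_ fun t => dist_pt z _
    show PEnd T e f (pt z (u0 - 3 + (3 + α))) (pt z (u0 - 3 + (4 + α)))
    rw [show u0 - 3 + (3 + α) = u0 + α by ring, show u0 - 3 + (4 + α) = u0 + α + 1 by ring]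
    exact hr
  refine full_oddK hcov (α := α) hα0 hα1 (fun t ht => ?_) kl kr (fun t ht h => ?_)
    (fun t ht => ?_)
    (g := g) ⟨fun t ht i hi j hj => hg.diff t ht i (hQK _ (dist_pt z _) hi) j
      (hQK _ (dist_pt z _) hj), fun t ht => ?_⟩ fun i hi => hg6 i (hQK _ (dist_pt z _) hi)
  · have h1 := hX (t - 3) ⟨by linarith [ht.1], by linarith [ht.2]⟩
    have h3 : u0 + (t - 3) = u0 - 3 + t := by ring
    rw [h3] at h1
    intro l hl
    rcases hl with ⟨rfl, h⟩ | ⟨rfl, h⟩ | ⟨rfl, h⟩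
    · exact absurd h.2 h1.1
    · exact absurd h.2 h1.2
    · rfl
  · rcases Q3_two.1 h with h | h
    · have h3 : u0 + (t - 3) = u0 - 3 + t := by ring
      have h4 := hXonly (t - 3) ⟨by linarith [ht.1], by linarith [ht.2]⟩
      rw [h3] at h4
      exact h4 h
    · have h3 : u0 + 3 + (t - 6) = u0 - 3 + t := by ring
      have h4 := hback (t - 6) ⟨by linarith [ht.1], by linarith [ht.2]⟩
      rw [h3] at h4
      exact h4 h
  · have h3 : u0 + (t - 3) = u0 - 3 + t := by ring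
    have h3' : u0 + (t - 2) = u0 - 3 + (t + 1) := by ring
    have h4 := hXonly (t - 3) ⟨by linarith [ht.1], by linarith [ht.2]⟩
    have h4' := hXonly (t - 2) ⟨by linarith [ht.1], by linarith [ht.2]⟩
    rw [h3] at h4
    rw [h3'] at h4'
    have h5 : dist (pt z (u0 - 3 + t)) (pt z (u0 - 3 + (t + 1))) = 1 := by
      have := dist_pt_one z (u0 - 3 + t)
      rwa [add_assoc] at this
    have h6 : ¬ Swp T z a b c d e f (pt z (u0 - 3 + t)) (pt z (u0 - 3 + (t + 1))) :=
      hsw' _ _ (dist_pt z _) (dist_pt z _) h5 h4 h4'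
    have h6' : ¬ Swp T z a b c d e f (pt z (u0 - 3 + (t + 1))) (pt z (u0 - 3 + t)) := by
      rintro ⟨l, m, hlm, k1, k2, k3, k4⟩
      exact h6 ⟨l, m, hlm, k3, k4, k1, k2⟩
    exact ⟨not_sub C (dist_pt z _) (dist_pt z _) h5 h4 h4' h6,
      not_sub C (dist_pt z _) (dist_pt z _) (by rw [dist_comm]; exact h5) h4' h4 h6'⟩
  · filter_upwards [hg.loc t ht] with s hs i hi
    exact hs i (hQK _ (dist_pt z _) hi)

end Vale.Agent.P032.H460
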